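import Vale.Agent.P151.Final

namespace Vale.Agent.Results.P151.Lattice

open Vale.Agent.P151

theorem result (d : ℕ) (hd : 2 ≤ d) :
    pc (latticeGraph d) < 1 ∧
      percMeasure (latticeGraph d) (pc (latticeGraph d)) (infEvent (Fin d → ℤ)) = 0 :=
  ⟨pc_lt_one hd, no_critical_percolation hd⟩

end Vale.Agent.Results.P151.Lattice
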