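import Vale.Agent.P151G.Main

namespace Vale.Agent.Results.P151.RankTwo

open Vale.Agent.P151

theorem result {V : Type*} (G : SimpleGraph V) [G.LocallyFinite] (hc : G.Connected)
    (Γ : Subgroup (G ≃g G)) (hq : ∃ F : Finset V, ∀ v, ∃ γ ∈ Γ, ∃ u ∈ F, γ u = v)
    (φ : Γ →* Multiplicative (ℤ × ℤ)) (hφ : Function.Surjective φ)
    (hs : ∀ (γ : Γ) (v : V), (γ : G ≃g G) v = v → φ γ = 1) (hp : pc G < 1) :
    percMeasure G (pc G) (infEvent V) = 0 := by
  classical
  exact P151G.no_critical hc (P151G.geo_exists hc Γ hq φ hφ hs) hp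

end Vale.Agent.Results.P151.RankTwo
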